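import Vale.Agent.P046.Final

open Filter Topology MeasureTheory

namespace Vale.Agent.Results.P046.Sharp

open Vale.Agent.P046

theorem result :
    (∀ ε : ℝ, 0 < ε → Tendsto (fun n : ℕ => (leaveLaw n).toMeasure
      {m : ℕ | ε ≤ |(m : ℝ) / (n : ℝ) ^ ((3 : ℝ) / 2) - 1 / (2 * √2)|}) atTop (𝓝 0)) ∧
    Tendsto (fun n : ℕ => (∫ m, (m : ℝ) ∂(leaveLaw n).toMeasure) / (n : ℝ) ^ ((3 : ℝ) / 2)) atTop
      (𝓝 (1 / (2 * √2))) := by
  have e : ∀ n : ℕ, (n : ℝ) ^ ((3 : ℝ) / 2) = n * √n := fun n => by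
    rw [Real.sqrt_eq_rpow, show (3 : ℝ) / 2 = 1 + 1 / 2 by norm_num,
      Real.rpow_add' (Nat.cast_nonneg n) (by norm_num), Real.rpow_one]
  simp only [e]
  have H : Tendsto (fun n : ℕ => ∫ m, |(m : ℝ) / (n * √n) - 1 / (2 * √2)| ∂(leaveLaw n).toMeasure)
      atTop (𝓝 0) := l1_conv.congr fun n => by
    rw [leaveLaw, law_integral, fE, Fintype.card_fin]
  have I : ∀ (n : ℕ) (φ : ℕ → ℝ), Integrable φ (leaveLaw n).toMeasure := fun n φ => law_int φ _ _
  constructor
  · intro ε hε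
    rw [← ENNReal.tendsto_toReal_iff (fun n => measure_ne_top _ _) ENNReal.zero_ne_top, ENNReal.toReal_zero]
    refine squeeze_zero (fun _ => ENNReal.toReal_nonneg) (fun n => ?_) (by simpa only [zero_div] using H.div_const ε)
    rw [le_div_iff₀ hε, mul_comm]
    exact mul_meas_ge_le_integral_of_nonneg (Eventually.of_forall fun _ => abs_nonneg _) (I n _) ε
  · rw [tendsto_iff_norm_sub_tendsto_zero]
    refine squeeze_zero (fun _ => norm_nonneg _) (fun n => ?_) H
    refine le_trans (le_of_eq ?_) abs_integral_le_integral_abs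
    rw [integral_sub (I n _) (integrable_const _), integral_div, integral_const]
    simp

end Vale.Agent.Results.P046.Sharp
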